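import Mathlib

/-!
# The rectangular Capelli step (block [CAP] of helper241's plan, board #6468)

A functional on polynomials in the coordinates of points `x_i ∈ ℂ^n` that is a highest weight
functional of weight `mu` (with `mu m + (n-1-m) ≠ 0`) and kills every multiple of every
`n × n` minor of the points is zero.
-/

namespace Vale.Agent.P181.H414

open MvPolynomial

variable {ι : Type*} {n : ℕ}

/-- The polarisation `∑_i x_{i,k} ∂/∂x_{i,m}`. -/
noncomputable def pol (k m : Fin n) :
    Derivation ℂ (MvPolynomial (ι × Fin n) ℂ) (MvPolynomial (ι × Fin n) ℂ) :=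
  mkDerivation ℂ (fun p : ι × Fin n => if p.2 = m then X (p.1, k) else 0)

@[simp] lemma pol_X (k m j : Fin n) (i : ι) :
    pol k m (X (i, j) : MvPolynomial (ι × Fin n) ℂ) = if j = m then X (i, k) else 0 := by
  simp [pol, mkDerivation_X]

lemma der_sum_apply {A : Type*} [CommRing A] [Algebra ℂ A] {κ : Type*} (s : Finset κ)
    (D : κ → Derivation ℂ A A) (M : A) : (∑ r ∈ s, D r) M = ∑ r ∈ s, D r M := by
  classical
  induction s using Finset.induction_on with
  | empty => simp
  | insert a s ha ih => rw [Finset.sum_insert ha, Finset.sum_insert ha, Derivation.add_apply, ih]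

/-- The polarisation as a sum of products `x_{r,k} ∂_{(r,m)}`. -/
lemma pol_eq_sum [Fintype ι] (k m : Fin n) (M : MvPolynomial (ι × Fin n) ℂ) :
    pol k m M = ∑ r : ι, X (r, k) * pderiv (r, m) M := by
  classical
  have h : (pol k m : Derivation ℂ (MvPolynomial (ι × Fin n) ℂ) (MvPolynomial (ι × Fin n) ℂ))
      = ∑ r : ι, (X (r, k) : MvPolynomial (ι × Fin n) ℂ) • pderiv (r, m) := by
    apply MvPolynomial.derivation_ext
    rintro ⟨i, j⟩
    rw [pol_X, der_sum_apply]
    have : ∀ r : ι, ((X (r, k) : MvPolynomial (ι × Fin n) ℂ) •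
        (pderiv (r, m) : Derivation ℂ (MvPolynomial (ι × Fin n) ℂ) _)) (X (i, j))
        = if r = i then (if j = m then X (i, k) else 0) else 0 := by
      intro r
      rw [Derivation.smul_apply, pderiv_X, smul_eq_mul]
      by_cases hr : r = i
      · subst hr
        by_cases hj : j = m
        · subst hj; simp
        · have : (r, m) ≠ (r, j) := by
            intro e; exact hj (Prod.ext_iff.1 e).2.symm
          simp [hj]
      · have : ¬ ((i, j) = (r, m)) := by
          intro e; exact hr (Prod.ext_iff.1 e).1.symm
        simp [hr, Ne.symm hr]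
    rw [Finset.sum_congr rfl (fun r _ => this r)]
    simp
  rw [h, der_sum_apply]
  simp [Derivation.smul_apply]

/-- A derivation that kills all entries of a matrix kills its determinant. -/
lemma der_det_zero {A : Type*} [CommRing A] [Algebra ℂ A] {κ : Type*} [Fintype κ] [DecidableEq κ]
    (D : Derivation ℂ A A) (N : Matrix κ κ A) (h : ∀ i j, D (N i j) = 0) : D N.det = 0 := by
  have hp : ∀ (s : Finset κ) (f : κ → A), (∀ i, D (f i) = 0) → D (∏ i ∈ s, f i) = 0 := by
    intro s f hf
    induction s using Finset.induction_on with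
    | empty => simp
    | insert a s ha ih => rw [Finset.prod_insert ha, Derivation.leibniz, ih, hf]; simp
  rw [Matrix.det_apply, map_sum]
  refine Finset.sum_eq_zero fun σ _ => ?_
  rw [Units.smul_def, map_zsmul, hp _ _ (fun i => h _ _), smul_zero]

/-- If a derivation kills all entries outside the row `m`, it acts on the determinant
by acting on the row `m`. -/
lemma der_det_row {A : Type*} [CommRing A] [Algebra ℂ A] {κ : Type*} [Fintype κ] [DecidableEq κ]
    (D : Derivation ℂ A A) (N : Matrix κ κ A) (m : κ) (h : ∀ i j, i ≠ m → D (N i j) = 0) :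
    D N.det = (N.updateRow m (fun j => D (N m j))).det := by
  have h1 : N.det = ∑ j, N m j * N.adjugate j m := by
    have := congrFun (congrFun (Matrix.mul_adjugate N) m) m
    rw [Matrix.mul_apply, Matrix.smul_apply, Matrix.one_apply_eq] at this
    rw [this]; simp
  have hadj : ∀ j, D (N.adjugate j m) = 0 := by
    intro j
    rw [Matrix.adjugate_apply]
    refine der_det_zero D _ fun i l => ?_
    by_cases hi : i = m
    · subst hi
      rw [Matrix.updateRow_self, Pi.single_apply]
      split_ifs
      · simp
      · simp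
    · rw [Matrix.updateRow_ne hi]
      exact h i l hi
  have h2 : (N.updateRow m (fun j => D (N m j))).det = ∑ j, D (N m j) * N.adjugate j m := by
    set N' := N.updateRow m (fun j => D (N m j)) with hN'
    have h3 : N'.det = ∑ j, N' m j * N'.adjugate j m := by
      have := congrFun (congrFun (Matrix.mul_adjugate N') m) m
      rw [Matrix.mul_apply, Matrix.smul_apply, Matrix.one_apply_eq] at this
      rw [this]; simp
    rw [h3]
    refine Finset.sum_congr rfl fun j _ => ?_
    rw [Matrix.adjugate_apply, Matrix.adjugate_apply, hN', Matrix.updateRow_self,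
      Matrix.updateRow_idem]
  rw [h2]
  conv_lhs => rw [h1]
  rw [map_sum]
  refine Finset.sum_congr rfl fun j _ => ?_
  rw [Derivation.leibniz, hadj, smul_zero, zero_add, smul_eq_mul, mul_comm]


/-- Columns `t < m` are unit vectors, columns `t ≥ m` are the points `pt t`. -/
noncomputable def Nm (m : ℕ) (pt : Fin n → ι) :
    Matrix (Fin n) (Fin n) (MvPolynomial (ι × Fin n) ℂ) :=
  Matrix.of fun s t => if (t : ℕ) < m then (if s = t then 1 else 0) else X (pt t, s)

lemma Nm_apply (m : ℕ) (pt : Fin n → ι) (s t : Fin n) :
    Nm m pt s t = if (t : ℕ) < m then (if s = t then 1 else 0) else X (pt t, s) := rfl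

/-- The matrix `Nm m pt` with the column `m` replaced by `e_s`. -/
noncomputable def Cs (m : Fin n) (pt : Fin n → ι) (s : Fin n) : MvPolynomial (ι × Fin n) ℂ :=
  ((Nm (m : ℕ) pt).updateCol m (Pi.single s 1)).det

lemma Nm_update (m : Fin n) (pt : Fin n → ι) (r : ι) :
    (Nm (m : ℕ) (Function.update pt m r)).det = ∑ s, X (r, s) * Cs m pt s := by
  have h1 : Nm (m : ℕ) (Function.update pt m r)
      = (Nm (m : ℕ) pt).updateCol m (fun s => X (r, s)) := by
    ext1 s t
    by_cases ht : t = m
    · subst ht
      rw [Matrix.updateCol_self, Nm_apply]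
      simp
    · rw [Matrix.updateCol_ne ht, Nm_apply, Nm_apply, Function.update_of_ne ht]
  rw [h1, ← Matrix.cramer_apply]
  have h2 : (fun s => (X (r, s) : MvPolynomial (ι × Fin n) ℂ))
      = ∑ s, (X (r, s) : MvPolynomial (ι × Fin n) ℂ) • (Pi.single s 1 :
          Fin n → MvPolynomial (ι × Fin n) ℂ) := by
    ext1 t
    rw [Finset.sum_apply]
    simp [Pi.single_apply]
  conv_lhs => rw [h2]
  rw [map_sum, Finset.sum_apply]
  refine Finset.sum_congr rfl fun s _ => ?_
  rw [map_smul, Pi.smul_apply, Matrix.cramer_apply, smul_eq_mul]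
  rfl

lemma Cs_lt (m : Fin n) (pt : Fin n → ι) (s : Fin n) (hs : s < m) : Cs m pt s = 0 := by
  unfold Cs
  refine Matrix.det_zero_of_column_eq (i := s) (j := m) hs.ne fun i => ?_
  rw [Matrix.updateCol_self, Matrix.updateCol_ne hs.ne, Nm_apply,
    if_pos (show (s : ℕ) < m from hs), Pi.single_apply]

lemma Cs_self (m : Fin n) (pt : Fin n → ι) : Cs m pt m = (Nm ((m : ℕ) + 1) pt).det := by
  unfold Cs
  congr 1
  ext1 i t
  by_cases ht : t = m
  · subst ht
    rw [Matrix.updateCol_self, Nm_apply, if_pos (Nat.lt_succ_self _), Pi.single_apply]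
  · rw [Matrix.updateCol_ne ht, Nm_apply, Nm_apply]
    have : ((t : ℕ) < (m : ℕ)) ↔ ((t : ℕ) < (m : ℕ) + 1) := by
      constructor
      · intro h; omega
      · intro h
        have : (t : ℕ) ≠ m := fun e => ht (Fin.ext e)
        omega
    simp only [this]

lemma pol_one_zero (k m : Fin n) (P : Prop) [Decidable P] :
    pol k m (if P then 1 else 0 : MvPolynomial (ι × Fin n) ℂ) = 0 := by
  split_ifs <;> simp

lemma pol_Cs_self (m : Fin n) (pt : Fin n → ι) : pol m m (Cs m pt m) = 0 := by
  rw [Cs_self, der_det_row (pol m m) _ m]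
  · refine Matrix.det_eq_zero_of_column_eq_zero m fun i => ?_
    by_cases hi : i = m
    · subst hi
      rw [Matrix.updateRow_self, Nm_apply, if_pos (Nat.lt_succ_self _), pol_one_zero]
    · rw [Matrix.updateRow_ne hi, Nm_apply, if_pos (Nat.lt_succ_self _), if_neg hi]
  · intro i j hi
    rw [Nm_apply]
    by_cases h : (j : ℕ) < (m : ℕ) + 1
    · rw [if_pos h, pol_one_zero]
    · rw [if_neg h, pol_X, if_neg hi]

lemma pol_Cs_gt (m : Fin n) (pt : Fin n → ι) (s : Fin n) (hs : m < s) :
    pol s m (Cs m pt s) = - Cs m pt m := by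
  classical
  have hsm : s ≠ m := hs.ne'
  unfold Cs
  rw [der_det_row (pol s m) _ m]
  swap
  · intro i j hi
    by_cases hj : j = m
    · subst hj
      rw [Matrix.updateCol_self, Pi.single_apply, pol_one_zero]
    · rw [Matrix.updateCol_ne hj, Nm_apply]
      by_cases h : (j : ℕ) < (m : ℕ)
      · rw [if_pos h, pol_one_zero]
      · rw [if_neg h, pol_X, if_neg hi]
  set A := (Nm (m : ℕ) pt).updateCol m (Pi.single s 1) with hA
  set w : Fin n → MvPolynomial (ι × Fin n) ℂ :=
    fun j => if j ≤ m then 0 else X (pt j, s) with hw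
  have hrow : (fun j => pol s m (A m j)) = w := by
    ext1 j
    rw [hw, hA]
    by_cases hj : j = m
    · subst hj
      simp only [le_refl, if_true]
      rw [Matrix.updateCol_self, Pi.single_apply, pol_one_zero]
    · rw [Matrix.updateCol_ne hj, Nm_apply]
      by_cases h : j < m
      · rw [if_pos (show (j : ℕ) < m from h), pol_one_zero]
        simp only [h.le, if_true]
      · rw [if_neg (show ¬ (j : ℕ) < m from h), pol_X, if_pos rfl]
        have : ¬ j ≤ m := fun h' => h (lt_of_le_of_ne h' hj)
        simp only [this, if_false]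
  rw [hrow]
  set P := A.updateRow m w with hP
  -- the row `s` of `P` is the row `m` of `P` plus `e_m`
  have hPm : P m = w := by rw [hP]; ext1 j; rw [Matrix.updateRow_self]
  have hPs : P s = w + Pi.single m 1 := by
    ext1 j
    rw [hP, Matrix.updateRow_ne hsm, hA, Pi.add_apply, hw]
    by_cases hj : j = m
    · subst hj
      rw [Matrix.updateCol_self]
      simp
    · rw [Matrix.updateCol_ne hj, Nm_apply]
      by_cases h : j < m
      · rw [if_pos (show (j : ℕ) < m from h)]
        have : s ≠ j := by
          intro e; subst e; exact absurd (h.trans hs) (lt_irrefl _)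
        simp [h.le, this, hj]
      · rw [if_neg (show ¬ (j : ℕ) < m from h)]
        have : ¬ j ≤ m := fun h' => h (lt_of_le_of_ne h' hj)
        simp [this, hj]
  have h1 : P.det = (P.updateRow s (Pi.single m 1)).det := by
    have e1 : P = P.updateRow s (w + Pi.single m 1) := by
      rw [← hPs, Matrix.updateRow_eq_self]
    have e2 : (P.updateRow s w).det = 0 := by
      refine Matrix.det_zero_of_row_eq (i := s) (j := m) hsm ?_
      ext1 j
      rw [Matrix.updateRow_self, Matrix.updateRow_ne hsm.symm, hPm]
    conv_lhs => rw [e1]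
    rw [Matrix.det_updateRow_add, e2, zero_add]
  rw [h1]
  set Q := P.updateRow s (Pi.single m 1) with hQ
  have h2 : (Q.submatrix (Equiv.swap m s) id).det = - Q.det := by
    rw [Matrix.det_permute, Equiv.Perm.sign_swap hsm.symm]
    simp
  -- compare with the matrix of `Cs m pt m`
  set R := (Nm (m : ℕ) pt).updateCol m (Pi.single m 1) with hR
  set Q' := Q.submatrix (Equiv.swap m s) id with hQ'
  have hQm : Q' m = Pi.single m 1 := by
    ext1 j
    rw [hQ', Matrix.submatrix_apply, Equiv.swap_apply_left, hQ, Matrix.updateRow_self]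
    rfl
  have hRm : ∃ v : Fin n → MvPolynomial (ι × Fin n) ℂ, v m = 0 ∧
      R = Q'.updateRow m (Pi.single m 1 + v) := by
    refine ⟨fun j => if j ≤ m then 0 else X (pt j, m), by simp, ?_⟩
    ext1 i j
    by_cases hi : i = m
    · subst hi
      rw [Matrix.updateRow_self, hR]
      by_cases hj : j = i
      · subst hj
        rw [Matrix.updateCol_self]; simp
      · rw [Matrix.updateCol_ne hj, Nm_apply]
        by_cases h : j < i
        · rw [if_pos (show (j : ℕ) < i from h)]
          simp [h.le, hj, Ne.symm hj]
        · rw [if_neg (show ¬ (j : ℕ) < i from h)]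
          have : ¬ j ≤ i := fun h' => h (lt_of_le_of_ne h' hj)
          simp [this, hj]
    · rw [Matrix.updateRow_ne hi, hQ', Matrix.submatrix_apply, hQ]
      by_cases his : i = s
      · subst his
        rw [Equiv.swap_apply_right, Matrix.updateRow_ne hsm.symm, hP, Matrix.updateRow_self, hR]
        simp only [id, hw]
        by_cases hj : j = m
        · subst hj
          rw [Matrix.updateCol_self]; simp [hi]
        · rw [Matrix.updateCol_ne hj, Nm_apply]
          by_cases h : j < m
          · rw [if_pos (show (j : ℕ) < m from h)]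
            have : i ≠ j := by
              intro e; subst e; exact absurd (h.trans hs) (lt_irrefl _)
            simp [h.le, this]
          · rw [if_neg (show ¬ (j : ℕ) < m from h)]
            have : ¬ j ≤ m := fun h' => h (lt_of_le_of_ne h' hj)
            simp [this]
      · rw [Equiv.swap_apply_of_ne_of_ne hi his, Matrix.updateRow_ne his, hP,
          Matrix.updateRow_ne hi, hA, hR]
        by_cases hj : j = m
        · subst hj
          rw [id, Matrix.updateCol_self, Matrix.updateCol_self, Pi.single_apply, Pi.single_apply,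
            if_neg hi, if_neg his]
        · rw [id, Matrix.updateCol_ne hj, Matrix.updateCol_ne hj]
  obtain ⟨v, hv0, hv⟩ := hRm
  have h3 : R.det = Q'.det := by
    have e2 : (Q'.updateRow m v).det = 0 := by
      refine Matrix.det_eq_zero_of_column_eq_zero m fun i => ?_
      by_cases hi : i = m
      · subst hi
        rw [Matrix.updateRow_self, hv0]
      · rw [Matrix.updateRow_ne hi]
        have : R i m = Q' i m := by rw [hv, Matrix.updateRow_ne hi]
        rw [← this, hR, Matrix.updateCol_self, Pi.single_apply, if_neg hi]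
    have e3 : Q'.updateRow m (Pi.single m 1) = Q' := by
      rw [← hQm, Matrix.updateRow_eq_self]
    rw [hv, Matrix.det_updateRow_add, e2, add_zero, e3]
  rw [h3, h2, neg_neg]

/-- **Block [CAP].** -/
theorem capRect [Fintype ι] (phi : MvPolynomial (ι × Fin n) ℂ →ₗ[ℂ] ℂ) (mu : Fin n → ℂ)
    (h0 : ∀ m k : Fin n, m < k → ∀ M, phi (pol k m M) = 0)
    (h1 : ∀ (m : Fin n) (M : MvPolynomial (ι × Fin n) ℂ), phi (pol m m M) = mu m * phi M)
    (hmu : ∀ m : Fin n, mu m + ((n - 1 - m : ℕ) : ℂ) ≠ 0)
    (hD : ∀ (pt : Fin n → ι) (M : MvPolynomial (ι × Fin n) ℂ),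
      phi (Matrix.det (Matrix.of fun s t : Fin n => X (pt t, s)) * M) = 0) : phi = 0 := by
  classical
  have claim : ∀ m : ℕ, m ≤ n → ∀ (pt : Fin n → ι) (M : MvPolynomial (ι × Fin n) ℂ),
      phi ((Nm m pt).det * M) = 0 := by
    intro m
    induction m with
    | zero =>
      intro _ pt M
      have : Nm 0 pt = Matrix.of fun s t : Fin n => (X (pt t, s) : MvPolynomial (ι × Fin n) ℂ) := by
        ext1 s t; rw [Nm_apply]; simp
      rw [this]; exact hD pt M
    | succ k ih =>
      intro hk pt M
      have ih := ih (by omega)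
      let m : Fin n := ⟨k, hk⟩
      have hsum : ∑ r : ι, (Nm (m : ℕ) (Function.update pt m r)).det * pderiv (r, m) M
          = ∑ s, Cs m pt s * pol s m M := by
        calc _ = ∑ r : ι, ∑ s, Cs m pt s * (X (r, s) * pderiv (r, m) M) := by
              refine Finset.sum_congr rfl fun r _ => ?_
              rw [Nm_update, Finset.sum_mul]
              refine Finset.sum_congr rfl fun s _ => ?_
              ring
          _ = _ := by
              rw [Finset.sum_comm]
              refine Finset.sum_congr rfl fun s _ => ?_
              rw [pol_eq_sum, Finset.mul_sum]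
      have hz : phi (∑ s, Cs m pt s * pol s m M) = 0 := by
        rw [← hsum, map_sum]
        exact Finset.sum_eq_zero fun r _ => ih _ _
      rw [map_sum] at hz
      have hterm : ∀ s, phi (Cs m pt s * pol s m M) =
          (if s = m then mu m * phi (Cs m pt m * M) else 0)
          + (if m < s then phi (Cs m pt m * M) else 0) := by
        intro s
        have e : Cs m pt s * pol s m M = pol s m (Cs m pt s * M) - pol s m (Cs m pt s) * M := by
          rw [Derivation.leibniz, smul_eq_mul, smul_eq_mul]; ring
        rcases lt_trichotomy s m with h | h | h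
        · rw [Cs_lt m pt s h, if_neg h.ne, if_neg (not_lt.2 h.le)]; simp
        · subst h
          rw [e, pol_Cs_self, zero_mul, sub_zero, h1, if_pos rfl, if_neg (lt_irrefl _), add_zero]
        · rw [e, pol_Cs_gt m pt s h, map_sub, h0 m s h, if_neg h.ne', if_pos h]
          simp
      rw [Finset.sum_congr rfl (fun s _ => hterm s), Finset.sum_add_distrib,
        Finset.sum_ite_eq' Finset.univ m, if_pos (Finset.mem_univ _)] at hz
      have hcard : ∑ s, (if m < s then phi (Cs m pt m * M) else 0)
          = ((n - 1 - m : ℕ) : ℂ) * phi (Cs m pt m * M) := by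
        rw [← Finset.sum_filter, Finset.sum_const, nsmul_eq_mul]
        congr 2
        have : (Finset.univ.filter fun s : Fin n => m < s) = Finset.Ioi m := by
          ext s; simp
        rw [this, Fin.card_Ioi]
      rw [hcard, ← add_mul] at hz
      have := (mul_eq_zero.1 hz).resolve_left (hmu m)
      rwa [Cs_self] at this
  have hone : ∀ pt : Fin n → ι, (Nm n pt).det = 1 := by
    intro pt
    have : Nm n pt = 1 := by
      ext1 s t
      rw [Nm_apply, if_pos t.2, Matrix.one_apply]
    rw [this, Matrix.det_one]
  refine LinearMap.ext fun M => ?_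
  rw [LinearMap.zero_apply]
  by_cases hpt : Nonempty (Fin n → ι)
  · obtain ⟨pt⟩ := hpt
    have := claim n le_rfl pt M
    rwa [hone, one_mul] at this
  · have hn : 0 < n := by
      rcases Nat.eq_zero_or_pos n with h | h
      · subst h; exact absurd ⟨fun i => i.elim0⟩ hpt
      · exact h
    have hι : IsEmpty ι := by
      by_contra h
      rw [not_isEmpty_iff] at h
      exact hpt ⟨fun _ => h.some⟩
    have hl := hmu ⟨n - 1, by omega⟩
    have hz := h1 ⟨n - 1, by omega⟩ M
    rw [pol_eq_sum, Finset.univ_eq_empty, Finset.sum_empty, map_zero] at hz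
    simp only [Nat.sub_self, Nat.cast_zero, add_zero] at hl
    simpa using (mul_eq_zero.1 hz.symm).resolve_left hl

end Vale.Agent.P181.H414
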